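import Vale.Agent.P216.Sym.Extra

open Bundle Manifold
open scoped ContDiff

namespace Vale.Agent.Results.P216.CircleWithInvolution

/-- A closed Riemannian manifold with a circle of isometries and a commuting isometric involution
outside the circle has infinitely many closed geodesics. -/
theorem result {E : Type*} [NormedAddCommGroup E] [NormedSpace ℝ E] [FiniteDimensional ℝ E]
    {M : Type*} [TopologicalSpace M] [ChartedSpace E M] [IsManifold 𝓘(ℝ, E) ∞ M]
    [T2Space M] [CompactSpace M] [PreconnectedSpace M]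
    (g : ContMDiffRiemannianMetric 𝓘(ℝ, E) ∞ E (fun x : M => TangentSpace 𝓘(ℝ, E) x))
    (φ : ℝ → M → M) (hzero : ∀ x, φ 0 x = x) (hadd : ∀ s t x, φ (s + t) x = φ s (φ t x))
    (hiso : ∀ t, Vale.Agent.P216.IsLocalIsometry g (φ t))
    (hcont : ∀ x, Continuous fun t => φ t x)
    (τ : ℝ) (hτ : 0 < τ) (hper : ∀ x, φ τ x = x) (hmove : ∃ t x, φ t x ≠ x)
    (ψ : M → M) (hψ : Vale.Agent.P216.IsLocalIsometry g ψ) (hinv : ∀ x, ψ (ψ x) = x)
    (hcomm : ∀ t x, φ t (ψ x) = ψ (φ t x)) (hout : ∀ t, ∃ x, ψ x ≠ φ t x) :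
    (Vale.Agent.P216.closedGeodesicImages g).Infinite :=
  Vale.Agent.P216.Sym.infinite_of_circle_involution φ hzero hadd hiso hcont hτ hper hmove hψ hinv
    hcomm hout

end Vale.Agent.Results.P216.CircleWithInvolution
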