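import Vale.Agent.P216.Pi1.Main

open Bundle Manifold
open scoped ContDiff

namespace Vale.Agent.Results.P216.FundamentalGroupClass

/-- Every metric on a closed connected manifold has infinitely many closed geodesics if a subgroup
of finite index of the fundamental group has either a non-trivial homomorphism to the integers
whose kernel has unbounded images in finite quotients (for instance: residually finite group,
infinite kernel), or a normal series in which `p`-th powers double the depth and which has more
than logarithmically many strict steps. -/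
theorem result {E : Type*} [NormedAddCommGroup E] [NormedSpace ℝ E] [FiniteDimensional ℝ E]
    {M : Type*} [TopologicalSpace M] [ChartedSpace E M] [IsManifold 𝓘(ℝ, E) ∞ M]
    [T2Space M] [CompactSpace M] [ConnectedSpace M]
    (g : ContMDiffRiemannianMetric 𝓘(ℝ, E) ∞ E (fun x : M => TangentSpace 𝓘(ℝ, E) x))
    (x₀ : M) (H : Subgroup (FundamentalGroup M x₀)) [H.FiniteIndex]
    (hK : (∃ φ : H →* Multiplicative ℤ, φ ≠ 1 ∧
        ((Group.ResiduallyFinite (FundamentalGroup M x₀) ∧ Infinite φ.ker) ∨
          ∀ B : ℕ, ∃ (N : Subgroup H) (_hN : N.Normal), N.FiniteIndex ∧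
            B < Nat.card (φ.ker.map (QuotientGroup.mk' N) : Subgroup (H ⧸ N)))) ∨
      ∃ (p : ℕ) (D : ℕ → Subgroup H), p.Prime ∧ (∀ n, (D n).Normal) ∧ Antitone D ∧ D 1 = ⊤ ∧
        (∀ n, ∀ x ∈ D n, x ^ p ∈ D (2 * n)) ∧ ∀ C : ℕ, ∃ n, C * (Nat.log 2 n + 1) <
          Set.ncard {i | i ∈ Set.Icc 1 n ∧ D (i + 1) ≠ D i}) :
    (Vale.Agent.P216.closedGeodesicImages g).Infinite :=
  Vale.Agent.P216.Pi1.infinite_of_pi1 x₀ H hK

end Vale.Agent.Results.P216.FundamentalGroupClass
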