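import Vale.Agent.P216.Main

open Bundle Manifold
open scoped ContDiff

namespace Vale.Agent.Results.P216.SymmetricMetrics

/-- Closed Riemannian manifolds with a connected isometry group whose commutator subgroup
contains a nontrivial circle of isometries have infinitely many closed geodesics. -/
theorem result {E : Type*} [NormedAddCommGroup E] [NormedSpace ℝ E] [FiniteDimensional ℝ E]
    {M : Type*} [TopologicalSpace M] [ChartedSpace E M] [IsManifold 𝓘(ℝ, E) ∞ M]
    [T2Space M] [CompactSpace M]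
    (g : ContMDiffRiemannianMetric 𝓘(ℝ, E) ∞ E (fun x : M => TangentSpace 𝓘(ℝ, E) x))
    (G : Type*) [Group G] [TopologicalSpace G] [IsTopologicalGroup G] [ConnectedSpace G]
    [MulAction G M] [ContinuousSMul G M]
    (hiso : ∀ a : G, Vale.Agent.P216.IsLocalIsometry g (fun x : M => a • x))
    (ρ : ℝ → G) (hadd : ∀ s t, ρ (s + t) = ρ s * ρ t)
    (hsmooth : ContMDiff (𝓘(ℝ, ℝ).prod 𝓘(ℝ, E)) 𝓘(ℝ, E) ∞
      (fun q : ℝ × M => ρ q.1 • q.2))
    (τ : ℝ) (hτ : 0 < τ) (hper : ρ τ = 1) (hcomm : ∀ t, ρ t ∈ commutator G)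
    (hmove : ∃ t, ∃ x : M, ρ t • x ≠ x) :
    (Vale.Agent.P216.closedGeodesicImages g).Infinite :=
  Vale.Agent.P216.infinite_closedGeodesicImages hiso ρ hadd hsmooth hτ hper hcomm hmove

end Vale.Agent.Results.P216.SymmetricMetrics
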