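import Vale.Agent.P216.Sym.Flow

open Bundle Manifold
open scoped ContDiff

namespace Vale.Agent.Results.P216.SymmetryGeodesics

/-- A closed Riemannian manifold has infinitely many closed geodesics if it has a nontrivial
periodic flow of isometries with a fixed point, or an isometric involution with a fixed point,
other than the identity, commuting with a flow of isometries whose rest points it fixes. -/
theorem result {E : Type*} [NormedAddCommGroup E] [NormedSpace ℝ E] [FiniteDimensional ℝ E]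
    {M : Type*} [TopologicalSpace M] [ChartedSpace E M] [IsManifold 𝓘(ℝ, E) ∞ M]
    [T2Space M] [CompactSpace M] [PreconnectedSpace M]
    (g : ContMDiffRiemannianMetric 𝓘(ℝ, E) ∞ E (fun x : M => TangentSpace 𝓘(ℝ, E) x))
    (φ : ℝ → M → M) (hzero : ∀ x, φ 0 x = x) (hadd : ∀ s t x, φ (s + t) x = φ s (φ t x))
    (hiso : ∀ t, Vale.Agent.P216.IsLocalIsometry g (φ t))
    (hcont : ∀ x, Continuous fun t => φ t x)
    (h : (∃ τ : ℝ, 0 < τ ∧ (∀ x, φ τ x = x) ∧ (∃ a, ∀ t, φ t a = a) ∧ ∃ t x, φ t x ≠ x) ∨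
      ∃ σ : M → M, Vale.Agent.P216.IsLocalIsometry g σ ∧ (∀ x, σ (σ x) = x) ∧
        (∀ t x, φ t (σ x) = σ (φ t x)) ∧ (∀ x, (∀ t, φ t x = x) → σ x = x) ∧
        (∃ a, σ a = a) ∧ ∃ q, σ q ≠ q) :
    (Vale.Agent.P216.closedGeodesicImages g).Infinite := by
  rcases h with ⟨τ, hτ, hper, ⟨a, ha⟩, hmove⟩ | ⟨σ, hσ, hinv, hcomm, hrest, ⟨a, ha⟩, ⟨q, hq⟩⟩
  · exact Vale.Agent.P216.Sym.infinite_of_circle φ hzero hadd hiso hcont hτ hper ha hmove
  · exact Vale.Agent.P216.Sym.infinite_of_involution φ hzero hadd hiso hcont hσ hinv hcomm hrest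
      ha hq

end Vale.Agent.Results.P216.SymmetryGeodesics
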